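import Mathlib

set_option autoImplicit false

namespace Vale.Agent.P057.H706

/-- ROW IDEM: lifting an idempotent modulo a nilpotent two-sided ideal. -/
theorem idem_row {R : Type} [Ring R] (I : Ideal R) [I.IsTwoSided] {d : ℕ} (hd : 1 ≤ d)
    (hI : I ^ d = ⊥) (a : R) (ha : a * a - a ∈ I) :
    ∃ p : R, p * p = p ∧ p - a ∈ I ∧ p * a ^ d = a ^ d ∧ a ^ d * p = a ^ d := by
  have h1 : a * (1 - a) ∈ I := by
    have : a * (1 - a) = -(a * a - a) := by noncomm_ring
    rw [this]
    exact neg_mem ha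
  have h2 : (a * (1 - a)) ^ d = 0 := by
    have := Ideal.pow_mem_pow h1 d
    rw [hI] at this
    simpa using this
  have hc : Commute a (1 - a) := (Commute.one_right a).sub_right (Commute.refl a)
  -- `1 - a ^ d = (1 - a) * s`
  have h3 : (1 - a) * (∑ i ∈ Finset.range d, a ^ i) = 1 - a ^ d := by
    exact mul_neg_geom_sum a d
  have hs : Commute a (∑ i ∈ Finset.range d, a ^ i) :=
    Commute.sum_right _ _ _ fun i _ => (Commute.refl a).pow_right i
  have hs' : Commute (1 - a) (∑ i ∈ Finset.range d, a ^ i) :=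
    (Commute.one_left _).sub_left hs
  set q : R := 1 - a ^ d with hq
  have hcq : Commute a q := (Commute.one_right a).sub_right ((Commute.refl a).pow_right d)
  have h4 : a ^ d * q ^ d = 0 := by
    rw [← h3, hs'.mul_pow, ← mul_assoc, ← hc.mul_pow, h2, zero_mul]
  have h5 : q ^ d * a ^ d = 0 := by
    rw [← ((hcq.pow_left d).pow_right d).eq]
    exact h4
  have h6 : (1 - q) * (∑ i ∈ Finset.range d, q ^ i) = 1 - q ^ d := mul_neg_geom_sum q d
  have h7 : 1 - q = a ^ d := by rw [hq]; abel
  rw [h7] at h6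
  have h8 : q ^ d * (1 - q ^ d) = 0 := by
    rw [← h6, ← mul_assoc, h5, zero_mul]
  refine ⟨1 - q ^ d, ?_, ?_, ?_, ?_⟩
  · have : (1 - q ^ d) * (1 - q ^ d) = (1 - q ^ d) - q ^ d * (1 - q ^ d) := by noncomm_ring
    rw [this, h8, sub_zero]
  · rw [← Ideal.Quotient.eq]
    have ha' : Ideal.Quotient.mk I a * Ideal.Quotient.mk I a = Ideal.Quotient.mk I a := by
      rw [← map_mul]
      exact (Ideal.Quotient.eq).2 ha
    have hpow : ∀ n : ℕ, 1 ≤ n → ∀ z : R ⧸ I, z * z = z → z ^ n = z := by
      intro n hn z hz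
      obtain ⟨m, rfl⟩ : ∃ m, n = m + 1 := ⟨n - 1, by omega⟩
      induction m with
      | zero => simp
      | succ m ih => rw [pow_succ, ih (by omega), hz]
    have h9 : Ideal.Quotient.mk I q = 1 - Ideal.Quotient.mk I a := by
      rw [hq, map_sub, map_one, map_pow, hpow d hd _ ha']
    rw [map_sub, map_one, map_pow, h9, hpow d hd (1 - Ideal.Quotient.mk I a) (by
      have : (1 - Ideal.Quotient.mk I a) * (1 - Ideal.Quotient.mk I a) =
          1 - Ideal.Quotient.mk I a - (Ideal.Quotient.mk I a -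
            Ideal.Quotient.mk I a * Ideal.Quotient.mk I a) := by noncomm_ring
      rw [this, ha', sub_self, sub_zero])]
    abel
  · rw [sub_mul, one_mul, h5, sub_zero]
  · rw [mul_sub, mul_one, h4, sub_zero]

end Vale.Agent.P057.H706
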