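import Vale.Agent.P057.R3.H706.Words
import Vale.Agent.P057.R3.H380.Part
import Vale.Agent.P057.R3.H664.ShiftIff
import Vale.Agent.P057.R3.H244.Rpow
import Vale.Agent.P057.R3.H567.Abel

set_option autoImplicit false

/-!
P057, digit statistics, GLUE II: the relative inequality.
-/

namespace Vale.Agent.P057.H706

open Vale.Agent.P057.H380

open Classical in
/-- The largest size of a subset of `{1, ..., K}` without a progression of length `k`. -/
noncomputable def rk (k K : ℕ) : ℕ :=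
  ((Finset.Icc 1 K).powerset.filter (fun F : Finset ℕ => ¬ HasAP k (F : Set ℕ))).sup
    Finset.card

theorem card_le_rk {k K : ℕ} (F : Finset ℕ) (hF : F ⊆ Finset.range K)
    (hAP : ¬ HasAP k (F : Set ℕ)) : F.card ≤ rk k K := by
  classical
  have h1 : (F.image (· + 1)).card = F.card :=
    Finset.card_image_of_injective _ (fun a c h => Nat.add_right_cancel h)
  rw [← h1]
  unfold rk
  refine Finset.le_sup (f := Finset.card) (Finset.mem_filter.2 ⟨Finset.mem_powerset.2 ?_, ?_⟩)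
  · intro x hx
    obtain ⟨y, hy, rfl⟩ := Finset.mem_image.1 hx
    have := Finset.mem_range.1 (hF hy)
    exact Finset.mem_Icc.2 ⟨by omega, by omega⟩
  · rintro ⟨a, d, hd, h⟩
    rcases Nat.eq_zero_or_pos k with hk | hk
    · exact hAP ⟨0, 1, one_pos, fun j hj => by omega⟩
    · refine hAP ⟨a - 1, d, hd, fun j hj => ?_⟩
      have h0 := h 0 hk
      have hj' := h j hj
      simp only [Finset.coe_image, Set.mem_image, Finset.mem_coe] at h0 hj' ⊢
      obtain ⟨y0, _, e0⟩ := h0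
      obtain ⟨y, hy, e⟩ := hj'
      have : a - 1 + j * d = y := by omega
      rw [this]
      exact hy

theorem cnt_eq (A : Set ℕ) (N : ℕ) : cnt (A \ {0}) (N + 1) = (A ∩ Set.Icc 1 N).ncard := by
  classical
  unfold cnt
  rw [← Set.ncard_coe_finset]
  congr 1
  ext n
  simp only [Finset.coe_filter, Finset.mem_range, Set.mem_sdiff, Set.mem_singleton_iff,
    Set.mem_ofPred_eq, Set.mem_inter_iff, Set.mem_Icc]
  constructor
  · rintro ⟨h1, h2, h3⟩
    exact ⟨h2, by omega, by omega⟩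
  · rintro ⟨h1, h2, h3⟩
    exact ⟨by omega, h1, by omega⟩

open Classical in
theorem ncard_eq_sum (A : Set ℕ) (N : ℕ) (c : ℝ) :
    ∑ n ∈ Finset.Icc 1 N, (if n ∈ A then c else 0) = c * ((A ∩ Set.Icc 1 N).ncard : ℝ) := by
  rw [← Finset.sum_filter, Finset.sum_const, nsmul_eq_mul, mul_comm]
  congr 2
  rw [← Set.ncard_coe_finset]
  congr 1
  ext n
  simp only [Finset.coe_filter, Finset.mem_Icc, Set.mem_ofPred_eq, Set.mem_inter_iff, Set.mem_Icc]
  tauto

open Classical in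
theorem recip_eq_sum (A : Set ℕ) (N : ℕ) (c : ℝ) :
    ∑ n ∈ Finset.Icc 1 N, (if n ∈ A then c else 0) / (n : ℝ) =
      c * ∑ n ∈ (Finset.Icc 1 N).filter (· ∈ A), 1 / (n : ℝ) := by
  rw [Finset.sum_filter, Finset.mul_sum]
  refine Finset.sum_congr rfl fun n _ => ?_
  split_ifs
  · ring
  · simp

open Classical in
/-- The relative inequality for every set which is invariant under a congruence that has words in
progression. -/
theorem relative_of_words {b : ℕ} (hb : 2 ≤ b) {r : List ℕ → List ℕ → Prop} (hr : Cong r)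
    {K : ℕ} (hK : 2 ≤ K) {w : ℕ → List ℕ} {D m : ℕ} (hD : 0 < D)
    (hv : 0 < Nat.ofDigits b (w 0))
    (hw : ∀ j < K, Dig b (w j) ∧ (w j).length = m ∧ (w j).getLast? = some 1 ∧ r (w 0) (w j) ∧
      Nat.ofDigits b (w j) = Nat.ofDigits b (w 0) + j * D) :
    ∃ θ C : ℝ, 0 < θ ∧ θ < 1 ∧ 0 < C ∧ ∀ A : Set ℕ,
      (∀ m n : ℕ, r (Nat.digits b m) (Nat.digits b n) → (m ∈ A ↔ n ∈ A)) →
      ∀ k : ℕ, ∀ A' : Set ℕ, A' ⊆ A → ¬ HasAP k A' →
        (∀ N : ℕ, 1 ≤ N → (K : ℝ) * ((A' ∩ Set.Icc 1 N).ncard : ℝ) ≤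
          rk k K * ((A ∩ Set.Icc 1 N).ncard : ℝ) + C * (N : ℝ) ^ θ) ∧
        (∀ N : ℕ, (K : ℝ) * ∑ n ∈ (Finset.Icc 1 N).filter (· ∈ A'), 1 / (n : ℝ) ≤
          rk k K * ∑ n ∈ (Finset.Icc 1 N).filter (· ∈ A), 1 / (n : ℝ) + C) := by
  have hV : ∀ j < K, Nat.ofDigits b (w 0) + j * D < b ^ m := by
    intro j hj
    rw [← (hw j hj).2.2.2.2]
    exact val_lt hb (hw j hj).1 (hw j hj).2.1
  have hB : 3 ≤ b ^ m := by
    have := hV 1 (by omega)
    omega
  obtain ⟨θ, C, hθ0, hθ1, hC, hpow⟩ := Vale.Agent.P057.R3.H244.to_rpow hB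
  obtain ⟨C', hC', habel⟩ := Vale.Agent.P057.H567.abel hθ1
  have hK0 : (0 : ℝ) < K := by
    have : 0 < K := by omega
    exact_mod_cast this
  set C1 : ℝ := 2 * (K : ℝ) ^ 2 * C with hC1
  have hC1pos : 0 < C1 := by positivity
  refine ⟨θ, C1 + C1 * C', hθ0, hθ1, by positivity, ?_⟩
  intro A hA k A' hA' hAP
  have hshift : ∀ n i j : ℕ, j < K → n / (b ^ m) ^ i % b ^ m = Nat.ofDigits b (w 0) →
      (n ∈ A ↔ n + j * (D * (b ^ m) ^ i) ∈ A) := fun n i j hj hi =>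
    Vale.Agent.P057.R3.H664.shift_iff hb hr hA hw hi j hj
  have hmain : ∀ N : ℕ, 1 ≤ N → (K : ℝ) * ((A' ∩ Set.Icc 1 N).ncard : ℝ) ≤
      rk k K * ((A ∩ Set.Icc 1 N).ncard : ℝ) + C1 * (N : ℝ) ^ θ := by
    intro N hN
    obtain ⟨T, hT1, hT2⟩ := hpow N hN
    have h1 := part hv hD hK hV T (A \ {0}) (by
      intro n i j hj hi
      have hn0 : n ≠ 0 := by
        rintro rfl
        rw [Nat.zero_div, Nat.zero_mod] at hi
        omega
      have h2 := hshift n i j hj hi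
      simp only [Set.mem_sdiff, Set.mem_singleton_iff]
      constructor
      · rintro ⟨h3, _⟩
        exact ⟨h2.1 h3, by omega⟩
      · rintro ⟨h3, _⟩
        exact ⟨h2.2 h3, hn0⟩) k (rk k K) (fun F hF h => card_le_rk F hF h) (A' \ {0})
      (Set.sdiff_subset_sdiff_left hA') (by
        rintro ⟨a, d, hd, h⟩
        exact hAP ⟨a, d, hd, fun j hj => (h j hj).1⟩) (N + 1) hT1
    rw [cnt_eq, cnt_eq] at h1
    have h2 : (K : ℝ) * ((A' ∩ Set.Icc 1 N).ncard : ℝ) ≤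
        rk k K * ((A ∩ Set.Icc 1 N).ncard : ℝ) +
          2 * (K : ℝ) ^ 2 * ((b ^ m - 1 : ℕ) : ℝ) ^ T := by
      exact_mod_cast h1
    refine h2.trans ?_
    have h3 : 2 * (K : ℝ) ^ 2 * ((b ^ m - 1 : ℕ) : ℝ) ^ T ≤ C1 * (N : ℝ) ^ θ := by
      rw [hC1, mul_assoc (2 * (K : ℝ) ^ 2) C]
      exact mul_le_mul_of_nonneg_left hT2 (by positivity)
    linarith
  constructor
  · intro N hN
    refine (hmain N hN).trans ?_
    have h1 : 0 ≤ (N : ℝ) ^ θ := Real.rpow_nonneg (Nat.cast_nonneg N) θ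
    have h2 : 0 ≤ C1 * C' * (N : ℝ) ^ θ := by positivity
    nlinarith
  · intro N
    have h1 := habel (fun n => if n ∈ A' then (K : ℝ) else 0)
      (fun n => if n ∈ A then (rk k K : ℝ) else 0) C1 hC1pos.le (by
        intro N hN
        rw [ncard_eq_sum, ncard_eq_sum]
        exact hmain N hN) N
    simp only [recip_eq_sum] at h1
    linarith

/-- Below the trivial bound: a set of `K ≥ k` consecutive integers has a progression. -/
theorem rk_lt {k K : ℕ} (hk : 1 ≤ k) (hkK : k ≤ K) : rk k K < K := by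
  classical
  unfold rk
  rw [Finset.sup_lt_iff (by simpa using (by omega : 0 < K))]
  intro F hF
  obtain ⟨hF1, hF2⟩ := Finset.mem_filter.1 hF
  have hF3 := Finset.mem_powerset.1 hF1
  have hne : F ≠ Finset.Icc 1 K := by
    rintro rfl
    refine hF2 ⟨1, 1, one_pos, fun j hj => ?_⟩
    simp only [Finset.coe_Icc, Set.mem_Icc]
    omega
  have h := Finset.card_lt_card (Finset.ssubset_iff_subset_ne.2 ⟨hF3, hne⟩)
  simpa using h

/-- The case `A' = A`: a power saving. -/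
theorem saving_of_words {b : ℕ} (hb : 2 ≤ b) {r : List ℕ → List ℕ → Prop} (hr : Cong r)
    {k : ℕ} {w : ℕ → List ℕ} {D m : ℕ} (hD : 0 < D)
    (hv : 0 < Nat.ofDigits b (w 0))
    (hw : ∀ j < max k 2, Dig b (w j) ∧ (w j).length = m ∧ (w j).getLast? = some 1 ∧
      r (w 0) (w j) ∧ Nat.ofDigits b (w j) = Nat.ofDigits b (w 0) + j * D) :
    ∃ θ C : ℝ, 0 < θ ∧ θ < 1 ∧ 0 < C ∧ ∀ A : Set ℕ,
      (∀ m n : ℕ, r (Nat.digits b m) (Nat.digits b n) → (m ∈ A ↔ n ∈ A)) → ¬ HasAP k A →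
        (∀ N : ℕ, 1 ≤ N → ((A ∩ Set.Icc 1 N).ncard : ℝ) ≤ C * (N : ℝ) ^ θ) ∧
        Summable (fun n : A => 1 / ((n : ℕ) : ℝ)) := by
  classical
  obtain ⟨θ, C, hθ0, hθ1, hC, h⟩ :=
    relative_of_words hb hr (K := max k 2) (by omega) hD hv hw
  refine ⟨θ, C, hθ0, hθ1, hC, fun A hA hAP => ?_⟩
  have hk : 1 ≤ k := by
    by_contra h0
    exact hAP ⟨0, 1, one_pos, fun j hj => by omega⟩
  obtain ⟨h1, h2⟩ := h A hA k A subset_rfl hAP
  have hrk : ((rk k (max k 2) : ℕ) : ℝ) + 1 ≤ ((max k 2 : ℕ) : ℝ) := by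
    exact_mod_cast rk_lt hk (le_max_left k 2)
  have h2' : ∀ N : ℕ, ∑ n ∈ (Finset.Icc 1 N).filter (· ∈ A), 1 / (n : ℝ) ≤ C := by
    intro N
    have h3 := h2 N
    have h4 : 0 ≤ ∑ n ∈ (Finset.Icc 1 N).filter (· ∈ A), 1 / (n : ℝ) :=
      Finset.sum_nonneg fun n _ => by positivity
    nlinarith
  constructor
  · intro N hN
    have h3 := h1 N hN
    have h4 : (0 : ℝ) ≤ ((A ∩ Set.Icc 1 N).ncard : ℝ) := Nat.cast_nonneg _
    nlinarith
  · refine (summable_subtype_iff_indicator (f := fun n : ℕ => 1 / (n : ℝ)) (s := A)).2 ?_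
    refine summable_of_sum_range_le (c := C) (fun n => ?_) (fun N => ?_)
    · exact Set.indicator_nonneg (fun n _ => by positivity) n
    · refine le_trans ?_ (h2' N)
      rw [Finset.sum_filter]
      have h5 : ∀ n : ℕ, Set.indicator A (fun n : ℕ => 1 / (n : ℝ)) n =
          if n ∈ A then 1 / (n : ℝ) else 0 := fun n => by
        by_cases hn : n ∈ A
        · simp [hn]
        · simp [hn]
      simp only [h5]
      rw [← Finset.sum_subset (s₁ := (Finset.range N).filter (0 < ·)) (s₂ := Finset.range N)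
        (Finset.filter_subset _ _)]
      · refine Finset.sum_le_sum_of_subset_of_nonneg ?_ ?_
        · intro n hn
          obtain ⟨h6, h7⟩ := Finset.mem_filter.1 hn
          have h8 := Finset.mem_range.1 h6
          exact Finset.mem_Icc.2 ⟨h7, by omega⟩
        · intro n _ _
          split_ifs
          · positivity
          · exact le_rfl
      · intro n hn hn'
        have h6 : n = 0 := by
          by_contra h7
          exact hn' (Finset.mem_filter.2 ⟨hn, Nat.pos_of_ne_zero h7⟩)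
        subst h6
        simp

theorem val_pos {b : ℕ} (hb : 2 ≤ b) {w : List ℕ} (hw : Dig b w)
    (hl : w.getLast? = some 1) : 0 < Nat.ofDigits b w := by
  have hw0 : w ≠ [] := by
    rintro rfl
    simp at hl
  rw [Nat.pos_iff_ne_zero]
  intro h
  have h4 := Nat.digits_ofDigits b (by omega) w hw (fun hne => by
    rw [List.getLast?_eq_getLast_of_ne_nil hne] at hl
    rw [Option.some.inj hl]
    exact one_ne_zero)
  rw [h, Nat.digits_zero] at h4
  exact hw0 h4.symm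

open Classical in
/-- GLUE II, abstract form. -/
theorem rel_abs {b : ℕ} (hb : 2 ≤ b) {r : List ℕ → List ℕ → Prop} (hr : Cong r) {K : ℕ}
    (hK : 2 ≤ K)
    (hw : ∃ (w : ℕ → List ℕ) (D m : ℕ), 0 < D ∧ 0 < m ∧ ∀ j < K, Dig b (w j) ∧
      (w j).length = m ∧ (w j).getLast? = some 1 ∧ r (w 0) (w j) ∧
      Nat.ofDigits b (w j) = Nat.ofDigits b (w 0) + j * D) :
    ∃ θ C : ℝ, 0 < θ ∧ θ < 1 ∧ 0 < C ∧ ∀ A : Set ℕ,
      (∀ m n : ℕ, r (Nat.digits b m) (Nat.digits b n) → (m ∈ A ↔ n ∈ A)) →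
      ∀ k : ℕ, ∀ A' : Set ℕ, A' ⊆ A → ¬ HasAP k A' →
        (∀ N : ℕ, 1 ≤ N → (K : ℝ) * ((A' ∩ Set.Icc 1 N).ncard : ℝ) ≤
          rk k K * ((A ∩ Set.Icc 1 N).ncard : ℝ) + C * (N : ℝ) ^ θ) ∧
        (∀ N : ℕ, (K : ℝ) * ∑ n ∈ (Finset.Icc 1 N).filter (· ∈ A'), 1 / (n : ℝ) ≤
          rk k K * ∑ n ∈ (Finset.Icc 1 N).filter (· ∈ A), 1 / (n : ℝ) + C) := by
  obtain ⟨w, D, m, hD, -, hw⟩ := hw
  have h0 := hw 0 (by omega)
  exact relative_of_words hb hr hK hD (val_pos hb h0.1 h0.2.2.1) hw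

open Classical in
theorem relative {b : ℕ} (hb : 2 ≤ b) {Q B Q' B' : Type} [Finite Q] [Finite Q']
    [AddCommMonoid B] [AddCommMonoid B'] (δ : Q → ℕ → Q × B) (δ' : Q' → ℕ → Q' × B')
    (q : Q) (q' : Q') (k K : ℕ) (hK : 2 ≤ K) :
    ∃ θ C : ℝ, 0 < θ ∧ θ < 1 ∧ 0 < C ∧ ∀ S : Set ((Q × B) × (Q' × B')),
      ∀ A' ⊆ statSet b δ δ' q q' S, ¬ HasAP k A' →
        (∀ N : ℕ, 1 ≤ N → (K : ℝ) * ((A' ∩ Set.Icc 1 N).ncard : ℝ) ≤
          rk k K * ((statSet b δ δ' q q' S ∩ Set.Icc 1 N).ncard : ℝ) + C * (N : ℝ) ^ θ) ∧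
        (∀ N : ℕ, (K : ℝ) * ∑ n ∈ (Finset.Icc 1 N).filter (· ∈ A'), 1 / (n : ℝ) ≤
          rk k K * ∑ n ∈ (Finset.Icc 1 N).filter (· ∈ statSet b δ δ' q q' S), 1 / (n : ℝ) +
            C) := by
  obtain ⟨w, D, m, hD, hm, hv, hw⟩ := exists_words hb δ δ' (k := K) (by omega)
  obtain ⟨θ, C, hθ0, hθ1, hC, h⟩ := relative_of_words hb (rel_cong δ δ') hK hD hv hw
  exact ⟨θ, C, hθ0, hθ1, hC, fun S A' hA' hAP =>
    h _ (fun m n h => rel_statSet q q' S m n h) k A' hA' hAP⟩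

end Vale.Agent.P057.H706
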