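import Vale.Agent.P057.R3.H475.Defs

set_option autoImplicit false

/-!
P057, digit statistics with advice, row C: pigeonhole on (step, state), then a telescoping sum.
-/

namespace Vale.Agent.P057.H706

open Vale.Agent.P057.H475

/-- The result of reading a word along a known path of states. -/
theorem arun_path {Q B : Type} [AddCommMonoid B] {b : ℕ} (hb : 0 < b) (m : ℕ) :
    ∀ (δ : ℕ → Q → ℕ → Q × B) (p : ℕ → Q) (c : ℕ → ℕ), (∀ t < m, c t < b) →
      (∀ t < m, p (t + 1) = (δ t (p t) (c t)).1) →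
      arun b δ m (p 0) (∑ t ∈ Finset.range m, c t * b ^ t) =
        (p m, ∑ t ∈ Finset.range m, (δ t (p t) (c t)).2) := by
  induction m with
  | zero =>
    intro δ p c _ _
    simp [arun]
  | succ m ih =>
    intro δ p c hc hp
    have h1 : ∑ t ∈ Finset.range (m + 1), c t * b ^ t =
        c 0 + b * ∑ t ∈ Finset.range m, c (t + 1) * b ^ t := by
      rw [Finset.sum_range_succ', Finset.mul_sum, pow_zero, mul_one, add_comm]
      congr 1
      refine Finset.sum_congr rfl fun t _ => ?_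
      ring
    have hc0 := hc 0 (by omega)
    have h2 : (∑ t ∈ Finset.range (m + 1), c t * b ^ t) % b = c 0 := by
      rw [h1, Nat.add_mul_mod_self_left, Nat.mod_eq_of_lt hc0]
    have h3 : (∑ t ∈ Finset.range (m + 1), c t * b ^ t) / b =
        ∑ t ∈ Finset.range m, c (t + 1) * b ^ t := by
      rw [h1, Nat.add_mul_div_left _ _ hb, Nat.div_eq_of_lt hc0, zero_add]
    have h4 := ih (fun i => δ (i + 1)) (fun i => p (i + 1)) (fun i => c (i + 1))
      (fun t ht => hc (t + 1) (by omega)) (fun t ht => hp (t + 1) (by omega))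
    simp only [arun]
    rw [h2, h3, ← hp 0 (by omega)]
    rw [show p (0 + 1) = (fun i => p (i + 1)) 0 from rfl, h4]
    refine Prod.ext rfl ?_
    change _ + ∑ t ∈ Finset.range m, (δ (t + 1) (p (t + 1)) (c (t + 1))).2 = _
    rw [Finset.sum_range_succ' (fun t => (δ t (p t) (c t)).2) m]
    exact add_comm _ _

/-- A number given by `m` digits is below `b ^ m`. -/
theorem digits_lt {b : ℕ} (m : ℕ) (c : ℕ → ℕ) (hc : ∀ t < m, c t < b) :
    ∑ t ∈ Finset.range m, c t * b ^ t < b ^ m := by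
  induction m with
  | zero => simp
  | succ m ih =>
    rw [Finset.sum_range_succ, pow_succ]
    have h1 := ih (fun t ht => hc t (by omega))
    have h2 := hc m (by omega)
    have h3 : (c m + 1) * b ^ m ≤ b * b ^ m := Nat.mul_le_mul_right _ (by omega)
    have h4 : (c m + 1) * b ^ m = c m * b ^ m + b ^ m := by ring
    rw [mul_comm (b ^ m) b]
    omega

/-- Numbering the elements of a finite set. -/
theorem numbering (T : Finset ℕ) : ∃ σ : ℕ → ℕ, (∀ t ∈ T, σ t < T.card) ∧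
    ∀ (M : Type) [AddCommMonoid M] (G : ℕ → M),
      ∑ t ∈ T, G (σ t) = ∑ s ∈ Finset.range T.card, G s := by
  classical
  refine ⟨fun t => if h : t ∈ T then (T.equivFin ⟨t, h⟩ : ℕ) else 0, ?_, ?_⟩
  · intro t ht
    simp only [dif_pos ht]
    exact (T.equivFin ⟨t, ht⟩).2
  · intro M _ G
    rw [← Fin.sum_univ_eq_sum_range, ← Finset.sum_coe_sort]
    refine Fintype.sum_equiv T.equivFin _ _ fun t => ?_
    simp [t.2]

/-- The sums over `Δ` consecutive arguments of a function of period `Δ`. -/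
theorem window {M : Type} [AddCommMonoid M] (g : ℕ → M) {Δ K : ℕ} (hΔ : 0 < Δ)
    (hg : ∀ i < K, g (i + Δ) = g i) : ∀ j < K,
      ∑ s ∈ Finset.range Δ, g (s + j) = ∑ s ∈ Finset.range Δ, g s := by
  intro j
  induction j with
  | zero => intro _; rfl
  | succ j ih =>
    intro hj
    rw [← ih (by omega)]
    obtain ⟨e, rfl⟩ : ∃ e, Δ = e + 1 := ⟨Δ - 1, by omega⟩
    rw [Finset.sum_range_succ, Finset.sum_range_succ']
    have h1 : g (e + (j + 1)) = g (0 + j) := by
      rw [zero_add, ← hg j (by omega)]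
      congr 1
      omega
    rw [h1]
    congr 1
    refine Finset.sum_congr rfl fun s _ => ?_
    congr 1
    omega

/-- ROW C. -/
theorem rowC {Q B : Type} [Finite Q] [AddCommMonoid B] {b : ℕ} (hb : 2 ≤ b)
    {𝒟 : Set (Q → ℕ → Q × B)} (h𝒟 : 𝒟.Finite) {K R : ℕ} (hK : 1 ≤ K)
    (hB : ∀ γ ∈ 𝒟, ∀ q, ∃ x y Δ : ℕ, 0 < y ∧ 0 < Δ ∧ Δ ≤ R ∧ (∀ i < Δ + K, x + i * y < b) ∧
      (∀ i < Δ + K, (γ q (x + i * y)).1 = (γ q x).1) ∧
      ∀ i < K, γ q (x + (i + Δ) * y) = γ q (x + i * y)) :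
    ∃ m : ℕ, ∀ δ : ℕ → Q → ℕ → Q × B, (∀ i, δ i ∈ 𝒟) → ∀ q : Q,
      ∃ v D : ℕ, 0 < D ∧ (∀ j < K, v + j * D < b ^ m) ∧
        ∀ j < K, arun b δ m q (v + j * D) = arun b δ m q v := by
  classical
  have : Fintype Q := Fintype.ofFinite Q
  choose! X Y Δ hXY using hB
  set P : Finset ((Q → ℕ → Q × B) × Q) := h𝒟.toFinset ×ˢ (Finset.univ : Finset Q) with hP
  refine ⟨P.card * R + 1, fun δ hδ q => ?_⟩
  -- the default path
  obtain ⟨p, hp0, hp⟩ : ∃ p : ℕ → Q, p 0 = q ∧
      ∀ t, p (t + 1) = (δ t (p t) (X (δ t) (p t))).1 :=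
    ⟨fun t => Nat.rec q (fun t s => (δ t s (X (δ t) s)).1) t, rfl, fun _ => rfl⟩
  obtain ⟨⟨γ, s₀⟩, hγ, hcard⟩ := Finset.exists_lt_card_fiber_of_mul_lt_card_of_maps_to
    (s := Finset.range (P.card * R + 1)) (t := P) (f := fun t => (δ t, p t)) (n := R)
    (fun t _ => Finset.mem_product.2 ⟨h𝒟.mem_toFinset.2 (hδ t), Finset.mem_univ _⟩)
    (by rw [Finset.card_range]; omega)
  have hγ𝒟 : γ ∈ 𝒟 := h𝒟.mem_toFinset.1 (Finset.mem_product.1 hγ).1
  obtain ⟨hy, hΔ, hΔR, hlt, hst, hper⟩ := hXY γ hγ𝒟 s₀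
  obtain ⟨T, hTs, hTc⟩ := Finset.exists_subset_card_eq (hΔR.trans hcard.le)
  have hT : ∀ t ∈ T, t < P.card * R + 1 ∧ δ t = γ ∧ p t = s₀ := by
    intro t ht
    have h1 := Finset.mem_filter.1 (hTs ht)
    exact ⟨Finset.mem_range.1 h1.1, congrArg Prod.fst h1.2, congrArg Prod.snd h1.2⟩
  obtain ⟨σ, hσ, hsum⟩ := numbering T
  rw [hTc] at hσ
  set m := P.card * R + 1 with hm
  -- the digits
  obtain ⟨c, hc⟩ : ∃ c : ℕ → ℕ → ℕ, ∀ j t, c j t =
      if t ∈ T then X γ s₀ + (σ t + j) * Y γ s₀ else X (δ t) (p t) := ⟨_, fun _ _ => rfl⟩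
  have hcb : ∀ j < K, ∀ t < m, c j t < b := by
    intro j hj t _
    rw [hc]
    split_ifs with h
    · exact hlt _ (by have := hσ t h; omega)
    · have h2 := (hXY (δ t) (hδ t) (p t)).2.2.2.1 0 (by
        have := (hXY (δ t) (hδ t) (p t)).2.1
        omega)
      simpa using h2
  have hcp : ∀ j < K, ∀ t < m, p (t + 1) = (δ t (p t) (c j t)).1 := by
    intro j hj t _
    rw [hc]
    split_ifs with h
    · obtain ⟨-, h1, h2⟩ := hT t h
      rw [hp t, h1, h2]
      exact (hst _ (by have := hσ t h; omega)).symm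
    · exact hp t
  set v : ℕ := ∑ t ∈ Finset.range m, c 0 t * b ^ t with hv
  set D : ℕ := Y γ s₀ * ∑ t ∈ T, b ^ t with hD
  have hTm : T ⊆ Finset.range m := fun t ht => Finset.mem_range.2 (hT t ht).1
  have hval : ∀ j, ∑ t ∈ Finset.range m, c j t * b ^ t = v + j * D := by
    intro j
    have h1 : ∀ t, c j t * b ^ t = c 0 t * b ^ t + if t ∈ T then j * (Y γ s₀ * b ^ t) else 0 := by
      intro t
      rw [hc, hc]
      split_ifs with h
      · ring
      · ring
    rw [Finset.sum_congr rfl fun t _ => h1 t, Finset.sum_add_distrib, Finset.sum_ite_mem,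
      Finset.inter_eq_right.2 hTm, ← Finset.mul_sum, ← Finset.mul_sum]
  have hrun : ∀ j < K, arun b δ m q (v + j * D) =
      (p m, ∑ t ∈ Finset.range m, (δ t (p t) (c j t)).2) := by
    intro j hj
    have h1 := arun_path (by omega : 0 < b) m δ p (c j) (hcb j hj) (hcp j hj)
    rw [hval j, hp0] at h1
    exact h1
  have hout : ∀ j < K, ∑ t ∈ Finset.range m, (δ t (p t) (c j t)).2 =
      ∑ t ∈ Finset.range m, (δ t (p t) (c 0 t)).2 := by
    intro j hj
    have hsplit : ∀ i < K, ∑ t ∈ Finset.range m, (δ t (p t) (c i t)).2 =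
        ∑ s ∈ Finset.range (Δ γ s₀), (γ s₀ (X γ s₀ + (s + i) * Y γ s₀)).2 +
          ∑ t ∈ Finset.range m \ T, (δ t (p t) (X (δ t) (p t))).2 := by
      intro i _
      rw [← Finset.sum_sdiff hTm, add_comm]
      congr 1
      · rw [← hTc, ← hsum B (fun s => (γ s₀ (X γ s₀ + (s + i) * Y γ s₀)).2)]
        refine Finset.sum_congr rfl fun t ht => ?_
        obtain ⟨-, h1, h2⟩ := hT t ht
        rw [hc, if_pos ht, h1, h2]
      · refine Finset.sum_congr rfl fun t ht => ?_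
        rw [hc, if_neg (Finset.mem_sdiff.1 ht).2]
    rw [hsplit j hj, hsplit 0 (by omega)]
    congr 1
    have hg : ∀ i < K, (fun i => (γ s₀ (X γ s₀ + i * Y γ s₀)).2) (i + Δ γ s₀) =
        (fun i => (γ s₀ (X γ s₀ + i * Y γ s₀)).2) i := fun i hi => congrArg Prod.snd (hper i hi)
    exact window (fun i => (γ s₀ (X γ s₀ + i * Y γ s₀)).2) hΔ hg j hj
  refine ⟨v, D, ?_, ?_, ?_⟩
  · have hTne : T.Nonempty := by
      rw [← Finset.card_pos, hTc]
      exact hΔ
    have h1 : 0 < ∑ t ∈ T, b ^ t := Finset.sum_pos (fun t _ => pow_pos (by omega) t) hTne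
    rw [hD]
    exact Nat.mul_pos hy h1
  · intro j hj
    rw [← hval j]
    exact digits_lt m (c j) (hcb j hj)
  · intro j hj
    have h0 := hrun 0 (by omega)
    rw [zero_mul, add_zero] at h0
    rw [hrun j hj, h0, hout j hj]

end Vale.Agent.P057.H706
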