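import Vale.Agent.P057.R3.H475.Basic
import Vale.Agent.P057.R3.H567.Pair
import Vale.Agent.P057.R3.H244.RowA
import Vale.Agent.P057.R3.H244.RowB
import Vale.Agent.P057.R3.H706.RowC

set_option autoImplicit false

/-!
P057, digit statistics with advice: the constant progressions (the proof of `core` is helper475's;
this file wires the proved rows together).
-/

namespace Vale.Agent.P057.H706

open Vale.Agent.P057.H380 Vale.Agent.P057.H475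

/-- Row A, wired. -/
theorem rowA {Q B : Type} [Finite Q] [AddCommMonoid B] {b : ℕ} (hb : 2 ≤ b)
    {𝒟 : Set (Q → ℕ → Q × B)} (h𝒟 : 𝒟.Finite) (K : ℕ) :
    ∃ m : ℕ, 0 < m ∧ ∀ δ : ℕ → Q → ℕ → Q × B, (∀ i, δ i ∈ 𝒟) →
      ∃ a Δ : ℕ, 0 < Δ ∧ a + Δ + K ≤ b ^ m ∧
        ∀ i < K, ∀ q, arun b δ m q (a + i + Δ) = arun b δ m q (a + i) :=
  Vale.Agent.P057.R3.H244.rowA_of hb (arun_add hb) (Vale.Agent.P057.H567.pair hb h𝒟) K

theorem adv_core {Q B : Type} [Finite Q] [AddCommMonoid B] {b : ℕ} (hb : 2 ≤ b)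
    {𝒟 : Set (Q → ℕ → Q × B)} (h𝒟 : 𝒟.Finite) {K : ℕ} (hK : 1 ≤ K) :
    ∃ m : ℕ, ∀ δ : ℕ → Q → ℕ → Q × B, (∀ i, δ i ∈ 𝒟) → ∀ q : Q,
      ∃ v D : ℕ, 0 < D ∧ (∀ j < K, b ^ m ≤ v + j * D ∧ v + j * D < b ^ (m + 1)) ∧
        ∀ j < K, arun b δ (m + 1) q (v + j * D) = arun b δ (m + 1) q v := by
  obtain ⟨m1, hm1, h1⟩ := rowA hb h𝒟 K
  set 𝒟₁ : Set (Q → ℕ → Q × B) := {f | ∃ δ : ℕ → Q → ℕ → Q × B, (∀ i, δ i ∈ 𝒟) ∧
      f = fun q x => arun b δ m1 q x} with h𝒟₁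
  have hfin1 : 𝒟₁.Finite := blk_finite b h𝒟 m1
  have hb1 : 2 ≤ b ^ m1 := le_trans hb (Nat.le_self_pow (by omega) b)
  obtain ⟨m2, hm2, h2⟩ := Vale.Agent.P057.R3.H244.rowB hb1 hfin1 (K := K) (by
    rintro γ ⟨δ, hδ, rfl⟩
    exact h1 δ hδ)
  set 𝒟₂ : Set (Q → ℕ → Q × B) := {f | ∃ δ : ℕ → Q → ℕ → Q × B, (∀ i, δ i ∈ 𝒟₁) ∧
      f = fun q x => arun (b ^ m1) δ m2 q x} with h𝒟₂
  have hfin2 : 𝒟₂.Finite := blk_finite (b ^ m1) hfin1 m2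
  have hb2 : 2 ≤ (b ^ m1) ^ m2 := le_trans hb1 (Nat.le_self_pow (by omega) _)
  obtain ⟨m3, h3⟩ := rowC hb2 hfin2 (K := K) (R := b ^ m1) hK (by
    rintro γ ⟨δ, hδ, rfl⟩ q
    exact h2 δ hδ q)
  refine ⟨m1 * (m2 * m3), fun δ hδ q => ?_⟩
  obtain ⟨v, D, hD, hv, h4⟩ := h3 (fun t q x => arun (b ^ m1)
      (fun i => (fun s q x => arun b (fun i => δ (m1 * s + i)) m1 q x) (m2 * t + i)) m2 q x)
    (fun t => ⟨fun i => (fun s q x => arun b (fun i => δ (m1 * s + i)) m1 q x) (m2 * t + i),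
      fun i => ⟨_, fun i' => hδ _, rfl⟩, rfl⟩) q
  have hpow : ((b ^ m1) ^ m2) ^ m3 = b ^ (m1 * (m2 * m3)) := by
    rw [← pow_mul, ← pow_mul]
  have h5 : ∀ j < K, arun b δ (m1 * (m2 * m3)) q (v + j * D) =
      arun b δ (m1 * (m2 * m3)) q v := by
    intro j hj
    have key : ∀ n, arun b δ (m1 * (m2 * m3)) q n = arun ((b ^ m1) ^ m2) (fun t q x =>
        arun (b ^ m1) (fun i => (fun s q x => arun b (fun i => δ (m1 * s + i)) m1 q x)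
          (m2 * t + i)) m2 q x) m3 q n := fun n =>
      (arun_blk hb m1 (m2 * m3) δ q n).trans (arun_blk hb1 m2 m3
        (fun s q x => arun b (fun i => δ (m1 * s + i)) m1 q x) q n)
    rw [key, key]
    exact h4 j hj
  rw [hpow] at hv
  have hbm : 0 < b ^ (m1 * (m2 * m3)) := by positivity
  refine ⟨v + b ^ (m1 * (m2 * m3)) * 1, D, hD, fun j hj => ?_, fun j hj => ?_⟩
  · have h7 := hv j hj
    refine ⟨by omega, ?_⟩
    rw [pow_succ]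
    have : b ^ (m1 * (m2 * m3)) * 2 ≤ b ^ (m1 * (m2 * m3)) * b := Nat.mul_le_mul_left _ hb
    omega
  · have e : v + b ^ (m1 * (m2 * m3)) * 1 + j * D = v + j * D + b ^ (m1 * (m2 * m3)) * 1 := by
      ring
    have h8 : v < b ^ (m1 * (m2 * m3)) := by simpa using hv 0 (by omega)
    rw [e, arun_add hb 1 _ δ q (v + j * D) 1 (hv j hj), arun_add hb 1 _ δ q v 1 h8, h5 j hj]

end Vale.Agent.P057.H706
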