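import Vale.Agent.P057.R3.H706.Glue2
import Vale.Agent.P057.R3.H706.AdvCore
import Vale.Agent.P057.R3.H567.PartF
import Vale.Agent.P057.R3.H664.Close

set_option autoImplicit false

/-!
P057, digit statistics with advice: the relative inequality.
-/

namespace Vale.Agent.P057.H706

open Vale.Agent.P057.H380 Vale.Agent.P057.H475

open Classical in
/-- The relative inequality from a window inequality in base `B`. -/
theorem rel_of_part {B K : ℕ} (hB : 3 ≤ B) (hK : 2 ≤ K) :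
    ∃ θ C : ℝ, 0 < θ ∧ θ < 1 ∧ 0 < C ∧ ∀ A : Set ℕ,
      (∀ T k ρ : ℕ, (∀ F : Finset ℕ, F ⊆ Finset.range K → ¬ HasAP k (F : Set ℕ) → F.card ≤ ρ) →
        ∀ A' : Set ℕ, A' ⊆ A \ {0} → ¬ HasAP k A' → ∀ N : ℕ, N ≤ B ^ T →
          K * cnt A' N ≤ ρ * cnt (A \ {0}) N + 2 * K ^ 2 * (B - 1) ^ T) →
      ∀ k : ℕ, ∀ A' : Set ℕ, A' ⊆ A → ¬ HasAP k A' →
        (∀ N : ℕ, 1 ≤ N → (K : ℝ) * ((A' ∩ Set.Icc 1 N).ncard : ℝ) ≤
          rk k K * ((A ∩ Set.Icc 1 N).ncard : ℝ) + C * (N : ℝ) ^ θ) ∧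
        (∀ N : ℕ, (K : ℝ) * ∑ n ∈ (Finset.Icc 1 N).filter (· ∈ A'), 1 / (n : ℝ) ≤
          rk k K * ∑ n ∈ (Finset.Icc 1 N).filter (· ∈ A), 1 / (n : ℝ) + C) := by
  obtain ⟨θ, C, hθ0, hθ1, hC, hpow⟩ := Vale.Agent.P057.R3.H244.to_rpow hB
  obtain ⟨C', hC', habel⟩ := Vale.Agent.P057.H567.abel hθ1
  have hK0 : (0 : ℝ) < K := by
    have : 0 < K := by omega
    exact_mod_cast this
  set C1 : ℝ := 2 * (K : ℝ) ^ 2 * C with hC1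
  have hC1pos : 0 < C1 := by positivity
  refine ⟨θ, C1 + C1 * C', hθ0, hθ1, by positivity, ?_⟩
  intro A hpart k A' hA' hAP
  have hmain : ∀ N : ℕ, 1 ≤ N → (K : ℝ) * ((A' ∩ Set.Icc 1 N).ncard : ℝ) ≤
      rk k K * ((A ∩ Set.Icc 1 N).ncard : ℝ) + C1 * (N : ℝ) ^ θ := by
    intro N hN
    obtain ⟨T, hT1, hT2⟩ := hpow N hN
    have h1 := hpart T k (rk k K) (fun F hF h => card_le_rk F hF h) (A' \ {0})
      (Set.sdiff_subset_sdiff_left hA') (by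
        rintro ⟨a, d, hd, h⟩
        exact hAP ⟨a, d, hd, fun j hj => (h j hj).1⟩) (N + 1) hT1
    rw [cnt_eq, cnt_eq] at h1
    have h2 : (K : ℝ) * ((A' ∩ Set.Icc 1 N).ncard : ℝ) ≤
        rk k K * ((A ∩ Set.Icc 1 N).ncard : ℝ) +
          2 * (K : ℝ) ^ 2 * ((B - 1 : ℕ) : ℝ) ^ T := by
      exact_mod_cast h1
    refine h2.trans ?_
    have h3 : 2 * (K : ℝ) ^ 2 * ((B - 1 : ℕ) : ℝ) ^ T ≤ C1 * (N : ℝ) ^ θ := by
      rw [hC1, mul_assoc (2 * (K : ℝ) ^ 2) C]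
      exact mul_le_mul_of_nonneg_left hT2 (by positivity)
    linarith
  constructor
  · intro N hN
    refine (hmain N hN).trans ?_
    have h1 : 0 ≤ (N : ℝ) ^ θ := Real.rpow_nonneg (Nat.cast_nonneg N) θ
    have h2 : 0 ≤ C1 * C' * (N : ℝ) ^ θ := by positivity
    nlinarith
  · intro N
    have h1 := habel (fun n => if n ∈ A' then (K : ℝ) else 0)
      (fun n => if n ∈ A then (rk k K : ℝ) else 0) C1 hC1pos.le (by
        intro N hN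
        rw [ncard_eq_sum, ncard_eq_sum]
        exact hmain N hN) N
    simp only [recip_eq_sum] at h1
    linarith

/-- The sets to which the window inequality is applied. -/
def AdvFam {Q B : Type} [AddCommMonoid B] (b : ℕ) (𝒟 : Set (Q → ℕ → Q × B)) (A : Set ℕ) : Prop :=
  ∃ δ : ℕ → Q → ℕ → Q × B, (∀ i, δ i ∈ 𝒟) ∧ ∃ (q : Q) (S : Set (Q × B)),
    ∀ n : ℕ, 0 < n → (n ∈ A ↔ n ∈ advSet b δ q S)

theorem advFam_br {Q B : Type} [AddCommMonoid B] {b : ℕ} (hb : 2 ≤ b)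
    {𝒟 : Set (Q → ℕ → Q × B)} (s : ℕ) (A : Set ℕ) (h : AdvFam b 𝒟 A) (d : ℕ) (hd : d < b ^ s) :
    AdvFam b 𝒟 (br (b ^ s) d A) := by
  obtain ⟨δ, hδ, q, S, hA⟩ := h
  obtain ⟨q', S', hc⟩ := Vale.Agent.P057.R3.H664.adv_close hb δ q S s d hd
  refine ⟨fun i => δ (s + i), fun i => hδ (s + i), q', S', fun y hy => ?_⟩
  have hpos : 0 < b ^ s * y := Nat.mul_pos (pow_pos (by omega) s) hy
  rw [← hc y hy]
  exact hA _ (by omega)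

theorem advFam_ap {Q B : Type} [AddCommMonoid B] {b : ℕ} (hb : 2 ≤ b)
    {𝒟 : Set (Q → ℕ → Q × B)} {m K : ℕ}
    (hcore : ∀ δ : ℕ → Q → ℕ → Q × B, (∀ i, δ i ∈ 𝒟) → ∀ q : Q,
      ∃ v D : ℕ, 0 < D ∧ (∀ j < K, b ^ m ≤ v + j * D ∧ v + j * D < b ^ (m + 1)) ∧
        ∀ j < K, arun b δ (m + 1) q (v + j * D) = arun b δ (m + 1) q v)
    (hK : 1 ≤ K) (A : Set ℕ) (h : AdvFam b 𝒟 A) :
    ∃ v D : ℕ, 0 < v ∧ 0 < D ∧ (∀ j < K, v + j * D < b ^ (m + 1)) ∧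
      ∀ j < K, br (b ^ (m + 1)) (v + j * D) A = br (b ^ (m + 1)) v A := by
  obtain ⟨δ, hδ, q, S, hA⟩ := h
  obtain ⟨v, D, hD, hv, hrun⟩ := hcore δ hδ q
  have hbm : 0 < b ^ m := pow_pos (by omega) m
  have hv0 := hv 0 (by omega)
  rw [zero_mul, add_zero] at hv0
  refine ⟨v, D, by omega, hD, fun j hj => (hv j hj).2, fun j hj => ?_⟩
  ext y
  have h1 := Vale.Agent.P057.R3.H664.adv_same hb δ q S m v (v + j * D) hv0 (hv j hj) (hrun j hj) y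
  have h2 := hA (v + j * D + b ^ (m + 1) * y) (by omega)
  have h3 := hA (v + b ^ (m + 1) * y) (by omega)
  change v + j * D + b ^ (m + 1) * y ∈ A ↔ v + b ^ (m + 1) * y ∈ A
  rw [h2, h3]
  exact h1

open Classical in
/-- GLUE for automata with advice. -/
theorem adv_relative {Q B : Type} [Finite Q] [AddCommMonoid B] {b : ℕ} (hb : 2 ≤ b)
    {𝒟 : Set (Q → ℕ → Q × B)} (h𝒟 : 𝒟.Finite) {K : ℕ} (hK : 2 ≤ K) :
    ∃ θ C : ℝ, 0 < θ ∧ θ < 1 ∧ 0 < C ∧ ∀ δ : ℕ → Q → ℕ → Q × B, (∀ i, δ i ∈ 𝒟) →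
      ∀ (q : Q) (S : Set (Q × B)) (k : ℕ) (A' : Set ℕ), A' ⊆ advSet b δ q S → ¬ HasAP k A' →
        (∀ N : ℕ, 1 ≤ N → (K : ℝ) * ((A' ∩ Set.Icc 1 N).ncard : ℝ) ≤
          rk k K * ((advSet b δ q S ∩ Set.Icc 1 N).ncard : ℝ) + C * (N : ℝ) ^ θ) ∧
        (∀ N : ℕ, (K : ℝ) * ∑ n ∈ (Finset.Icc 1 N).filter (· ∈ A'), 1 / (n : ℝ) ≤
          rk k K * ∑ n ∈ (Finset.Icc 1 N).filter (· ∈ advSet b δ q S), 1 / (n : ℝ) + C) := by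
  obtain ⟨m, hcore⟩ := adv_core hb h𝒟 (K := K) (by omega)
  by_cases hex : ∃ (δ : ℕ → Q → ℕ → Q × B) (_ : Q), ∀ i, δ i ∈ 𝒟
  · obtain ⟨δ₀, q₀, hδ₀⟩ := hex
    have hB : 3 ≤ b ^ (m + 1) := by
      obtain ⟨v, D, hD, hv, -⟩ := hcore δ₀ hδ₀ q₀
      have h1 := hv 1 (by omega)
      have h2 := hv 0 (by omega)
      have hbm : 0 < b ^ m := pow_pos (by omega) m
      rw [zero_mul, add_zero] at h2
      rw [one_mul] at h1
      omega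
    obtain ⟨θ, C, hθ0, hθ1, hC, h⟩ := rel_of_part hB hK
    refine ⟨θ, C, hθ0, hθ1, hC, fun δ hδ q S k A' hA' hAP => ?_⟩
    refine h (advSet b δ q S) (fun T k ρ hρ A' hA' hAP N hN => ?_) k A' hA' hAP
    exact Vale.Agent.P057.H567.part_family hK (AdvFam b 𝒟)
      (fun A hA d hd => advFam_br hb (m + 1) A hA d hd)
      (fun A hA => advFam_ap hb hcore (by omega) A hA) T (advSet b δ q S \ {0})
      ⟨δ, hδ, q, S, fun n hn => ⟨fun h => h.1, fun h => ⟨h, by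
        rw [Set.mem_singleton_iff]
        omega⟩⟩⟩ k ρ hρ A' hA' hAP N hN
  · exact ⟨1 / 2, 1, by norm_num, by norm_num, one_pos, fun δ hδ q => absurd ⟨δ, q, hδ⟩ hex⟩

open Classical in
/-- The case `A' = A`: a power saving. -/
theorem adv_saving {Q B : Type} [Finite Q] [AddCommMonoid B] {b : ℕ} (hb : 2 ≤ b)
    {𝒟 : Set (Q → ℕ → Q × B)} (h𝒟 : 𝒟.Finite) (k : ℕ) :
    ∃ θ C : ℝ, 0 < θ ∧ θ < 1 ∧ 0 < C ∧ ∀ δ : ℕ → Q → ℕ → Q × B, (∀ i, δ i ∈ 𝒟) →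
      ∀ (q : Q) (S : Set (Q × B)), ¬ HasAP k (advSet b δ q S) →
        (∀ N : ℕ, 1 ≤ N → ((advSet b δ q S ∩ Set.Icc 1 N).ncard : ℝ) ≤ C * (N : ℝ) ^ θ) ∧
        (∀ N : ℕ, ∑ n ∈ (Finset.Icc 1 N).filter (· ∈ advSet b δ q S), 1 / (n : ℝ) ≤ C) := by
  obtain ⟨θ, C, hθ0, hθ1, hC, h⟩ := adv_relative hb h𝒟 (K := max k 2) (by omega)
  refine ⟨θ, C, hθ0, hθ1, hC, fun δ hδ q S hAP => ?_⟩
  have hk : 1 ≤ k := by
    by_contra h0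
    exact hAP ⟨0, 1, one_pos, fun j hj => by omega⟩
  obtain ⟨h1, h2⟩ := h δ hδ q S k _ subset_rfl hAP
  have hrk : ((rk k (max k 2) : ℕ) : ℝ) + 1 ≤ ((max k 2 : ℕ) : ℝ) := by
    exact_mod_cast rk_lt hk (le_max_left k 2)
  constructor
  · intro N hN
    have h3 := h1 N hN
    have h4 : (0 : ℝ) ≤ ((advSet b δ q S ∩ Set.Icc 1 N).ncard : ℝ) := Nat.cast_nonneg _
    nlinarith
  · intro N
    have h3 := h2 N
    have h4 : 0 ≤ ∑ n ∈ (Finset.Icc 1 N).filter (· ∈ advSet b δ q S), 1 / (n : ℝ) :=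
      Finset.sum_nonneg fun n _ => by positivity
    nlinarith

open Classical in
/-- The counting part of `adv_relative`. -/
theorem main_uniform {Q B : Type} [Finite Q] [AddCommMonoid B] {b : ℕ} (hb : 2 ≤ b)
    {𝒟 : Set (Q → ℕ → Q × B)} (h𝒟 : 𝒟.Finite) {K : ℕ} (hK : 2 ≤ K) :
    ∃ θ C : ℝ, 0 < θ ∧ θ < 1 ∧ 0 < C ∧ ∀ δ : ℕ → Q → ℕ → Q × B, (∀ i, δ i ∈ 𝒟) →
      ∀ (q : Q) (S : Set (Q × B)) (k : ℕ) (A' : Set ℕ), A' ⊆ advSet b δ q S → ¬ HasAP k A' →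
        ∀ N : ℕ, 1 ≤ N → (K : ℝ) * ((A' ∩ Set.Icc 1 N).ncard : ℝ) ≤
          rk k K * ((advSet b δ q S ∩ Set.Icc 1 N).ncard : ℝ) + C * (N : ℝ) ^ θ := by
  obtain ⟨θ, C, h0, h1, hC, h⟩ := adv_relative hb h𝒟 hK
  exact ⟨θ, C, h0, h1, hC, fun δ hδ q S k A' hA' hAP => (h δ hδ q S k A' hA' hAP).1⟩

end Vale.Agent.P057.H706
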