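import Vale.Agent.P057.R3.H664.Core
import Vale.Agent.P057.R3.H567.Aut

set_option autoImplicit false

/-!
P057, digit statistics: the words which move a number along a progression without changing its
digit statistics, for two automata reading from the two ends.
-/

namespace Vale.Agent.P057.H706

open Nat
open Vale.Agent.P057.H380

/-- The numbers whose base `b` digit statistics lie in `S`: `δ` reads the digits from the bottom
(starting in the state `q`), `δ'` reads them from the top (starting in the state `q'`). -/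
def statSet {Q B Q' B' : Type} [AddCommMonoid B] [AddCommMonoid B'] (b : ℕ)
    (δ : Q → ℕ → Q × B) (δ' : Q' → ℕ → Q' × B') (q : Q) (q' : Q')
    (S : Set ((Q × B) × (Q' × B'))) : Set ℕ :=
  {n | (run δ q (Nat.digits b n), run δ' q' (Nat.digits b n).reverse) ∈ S}

/-- Two words are equivalent when both automata cannot tell them apart. -/
def rel {Q B Q' B' : Type} [AddCommMonoid B] [AddCommMonoid B']
    (δ : Q → ℕ → Q × B) (δ' : Q' → ℕ → Q' × B') (u v : List ℕ) : Prop :=
  (∀ q, run δ q u = run δ q v) ∧ (∀ q', run δ' q' u.reverse = run δ' q' v.reverse)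

theorem rel_cong {Q B Q' B' : Type} [AddCommMonoid B] [AddCommMonoid B']
    (δ : Q → ℕ → Q × B) (δ' : Q' → ℕ → Q' × B') : Cong (rel δ δ') where
  eqv := ⟨fun _ => ⟨fun _ => rfl, fun _ => rfl⟩,
    fun h => ⟨fun q => (h.1 q).symm, fun q => (h.2 q).symm⟩,
    fun h h' => ⟨fun q => (h.1 q).trans (h'.1 q), fun q => (h.2 q).trans (h'.2 q)⟩⟩
  app := by
    intro u u' v v' h h'
    refine ⟨fun q => ?_, fun q => ?_⟩
    · rw [Vale.Agent.P057.H567.run_append, Vale.Agent.P057.H567.run_append, h.1 q, h'.1]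
    · rw [List.reverse_append, List.reverse_append, Vale.Agent.P057.H567.run_append,
        Vale.Agent.P057.H567.run_append, h'.2 q, h.2]

theorem rel_statSet {Q B Q' B' : Type} [AddCommMonoid B] [AddCommMonoid B'] {b : ℕ}
    {δ : Q → ℕ → Q × B} {δ' : Q' → ℕ → Q' × B'} (q : Q) (q' : Q')
    (S : Set ((Q × B) × (Q' × B'))) (m n : ℕ)
    (h : rel δ δ' (Nat.digits b m) (Nat.digits b n)) :
    (m ∈ statSet b δ δ' q q' S ↔ n ∈ statSet b δ δ' q q' S) := by
  have e : (run δ q (Nat.digits b m), run δ' q' (Nat.digits b m).reverse) =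
      (run δ q (Nat.digits b n), run δ' q' (Nat.digits b n).reverse) := by
    rw [h.1 q, h.2 q']
  change _ ∈ S ↔ _ ∈ S
  rw [e]

theorem reverse_flatten_replicate (N : ℕ) (w : List ℕ) :
    ((List.replicate N w).flatten).reverse = (List.replicate N w.reverse).flatten := by
  rw [List.reverse_flatten, List.map_replicate, List.reverse_replicate]

theorem pw_reverse (e : List ℕ) (N : ℕ) (u : List ℕ) :
    (pw e N u).reverse = pw e.reverse N u.reverse := by
  unfold pw
  rw [reverse_flatten_replicate]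
  simp [List.reverse_append, List.append_assoc]

theorem Dig.reverse {b : ℕ} {u : List ℕ} (hu : Dig b u) : Dig b u.reverse :=
  fun d hd => hu d (List.mem_reverse.1 hd)

/-- One word and one exponent make the powers commute for both automata. -/
theorem exists_comm {Q B Q' B' : Type} [Finite Q] [Finite Q'] [AddCommMonoid B]
    [AddCommMonoid B'] (δ : Q → ℕ → Q × B) (δ' : Q' → ℕ → Q' × B') (b : ℕ) :
    ∃ (e : List ℕ) (N : ℕ), Dig b e ∧ 1 ≤ N ∧ ∀ u v : List ℕ, Dig b u → Dig b v →
      rel δ δ' (pw e N u ++ pw e N v) (pw e N v ++ pw e N u) := by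
  obtain ⟨e1, he1, h1⟩ := Vale.Agent.P057.H567.aut_comm δ b
  obtain ⟨e2, he2, h2⟩ := Vale.Agent.P057.H567.aut_comm δ' b
  have hQ : 0 < (Nat.card Q)! := Nat.factorial_pos _
  have hQ' : 0 < (Nat.card Q')! := Nat.factorial_pos _
  refine ⟨e1 ++ e2.reverse, (Nat.card Q)! * (Nat.card Q')!,
    Vale.Agent.P057.H567.Dig.append he1 (Dig.reverse he2), Nat.mul_pos hQ hQ', ?_⟩
  intro u v hu hv
  refine ⟨fun s => h1 e2.reverse u v (Dig.reverse he2) hu hv _ hQ' s, fun s => ?_⟩
  have h3 := h2 e1.reverse v.reverse u.reverse (Dig.reverse he1) (Dig.reverse hv)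
    (Dig.reverse hu) _ hQ s
  rw [List.reverse_append, List.reverse_append, pw_reverse, pw_reverse, List.reverse_append,
    List.reverse_reverse, mul_comm ((Nat.card Q)!) ((Nat.card Q')!)]
  exact h3

/-- Words in arithmetic progression which neither automaton can tell apart. -/
theorem exists_words {b : ℕ} (hb : 2 ≤ b) {Q B Q' B' : Type} [Finite Q] [Finite Q']
    [AddCommMonoid B] [AddCommMonoid B'] (δ : Q → ℕ → Q × B) (δ' : Q' → ℕ → Q' × B')
    {k : ℕ} (hk : 1 ≤ k) :
    ∃ (w : ℕ → List ℕ) (D m : ℕ), 0 < D ∧ 0 < m ∧ 0 < Nat.ofDigits b (w 0) ∧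
      ∀ j < k, Dig b (w j) ∧ (w j).length = m ∧ (w j).getLast? = some 1 ∧
        rel δ δ' (w 0) (w j) ∧
        Nat.ofDigits b (w j) = Nat.ofDigits b (w 0) + j * D := by
  obtain ⟨e, N, he, hN, hc⟩ := exists_comm δ δ' b
  obtain ⟨w, D, m, hD, hm, hw⟩ :=
    Vale.Agent.P057.R3.H664.words hb (rel_cong δ δ') he hN hc k
  have h0 := hw 0 (by omega)
  have hw0 : w 0 ≠ [] := by
    intro h
    have h4 := h0.2.1
    rw [h] at h4
    simp at h4
    omega
  have hv0 : 0 < Nat.ofDigits b (w 0) := by
    rw [Nat.pos_iff_ne_zero]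
    intro h
    have h4 := Nat.digits_ofDigits b (by omega) (w 0) h0.1 (fun hne => by
      have h5 := h0.2.2.1
      rw [List.getLast?_eq_getLast_of_ne_nil hne] at h5
      rw [Option.some.inj h5]
      exact one_ne_zero)
    rw [h, Nat.digits_zero] at h4
    exact hw0 h4.symm
  exact ⟨w, D, m, hD, hm, hv0, hw⟩

theorem val_lt {b m : ℕ} (hb : 2 ≤ b) {w : List ℕ} (hw : Dig b w) (hl : w.length = m) :
    Nat.ofDigits b w < b ^ m := by
  rw [← hl]
  exact Nat.ofDigits_lt_base_pow_length (by omega) (fun x hx => hw x hx)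

end Vale.Agent.P057.H706
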